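import Vale.Agent.P216.H971B.Fam2

/-!
# P216-B: the form (B'') of Theorem B

Finitely many closed geodesics and infinitely many free homotopy classes: for some point `x` all the
classes `eta U` are exact on the null-homotopic based loops of bounded length.
-/

open Set Filter Topology

namespace Vale.Agent.P216.H971B

open L250 H494
open Vale.Agent.P216.Sl Vale.Agent.P216.N929

/-- **(B'')** -/
theorem bpp (h1 : R1Goal) (h2 : R2Goal) (h2b : R2bGoal) (h3 : R3Goal) (h4 : R4Goal)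
    (M : Type) [MetricSpace M] [CompactSpace M] [PathConnectedSpace M] (ρ : ℝ) (hρ : 0 < ρ)
    (hs : LS.UniqSeg M ρ) (G : GeoList M) (hπ : Infinite (ZerothHomotopy (LM M))) :
    ∃ x : M, ∀ (k : Type) [Field k] (q : ℕ) (U : List M → k), 1 ≤ q → Nrm U →
      CocL (univ : Set M) (q + 1) U → ∀ T : ℕ, ∃ N0 : ℕ, ∀ N ≥ N0,
        ExL (Om0 M x T) q (H140.eta N U) := by
  obtain ⟨c, L, hL, hcK, hmin, hgap⟩ := h1 M ρ hρ hs G hπ
  refine ⟨fn c 0, fun k _ q U hq hU hc T => ?_⟩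
  obtain ⟨m0, hm0⟩ := hgap ((T : ℝ) + 1)
  set m : ℕ := max m0 1 with hm
  have hm1 : 1 ≤ m := le_max_right _ _
  have hmpos : (0 : ℝ) < m := by exact_mod_cast hm1
  have ha : 0 < (m : ℝ) * L := mul_pos hmpos hL
  set S : ℕ := ⌊(m : ℝ) * L⌋₊ + 1 with hS
  have hS1 : (m : ℝ) * L < S := by
    rw [hS]
    push_cast
    exact Nat.lt_floor_add_one _
  have hS2 : (S : ℝ) ≤ m * L + 1 := by
    rw [hS]
    push_cast
    have := Nat.floor_le ha.le
    linarith
  have haT : (m : ℝ) * L < ((T + S : ℕ) : ℝ) := by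
    push_cast
    have : (0 : ℝ) ≤ T := by positivity
    linarith
  set cm := iter m c with hcm
  have hTS : (0 : ℝ) ≤ ((T + S : ℕ) : ℝ) := by positivity
  obtain ⟨N1, hN1⟩ := r8Goal M k q U hc ((T + S : ℕ) : ℝ) hTS
  have hZ : Ecl M ((m : ℝ) * L) cm ⊆ Geo1 G ((m : ℝ) * L) :=
    h2b M ρ hρ hs G cm _ ha fun x hx T' hT' hxT => hmin m hm1 x hx T' hT' hxT
  obtain ⟨N2, hN2⟩ := h4 M G k q U ((m : ℝ) * L) _ hq hU hc ha hZ
  refine ⟨max N1 N2, fun N' hN' => ?_⟩
  have hTSpos : 1 ≤ T + S := by omega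
  set N : ℕ := (T + S) * (N' + 1) - 1 with hN
  have hNN : N + 1 = (T + S) * (N' + 1) := by
    have : 1 ≤ (T + S) * (N' + 1) := Nat.mul_pos (by omega) (by omega)
    omega
  have hNge : N' ≤ N := by
    have : N' + 1 ≤ (T + S) * (N' + 1) := Nat.le_mul_of_pos_left _ (by omega)
    omega
  have hcoc := hN1 N ((le_max_left _ _).trans (hN'.trans hNge))
  have hcoc' : CocL (Ecl M ((T + S : ℕ) : ℝ) cm) q (etaL (k := k) N U) :=
    hcoc.mono fun x hx => hx.1
  have hex0 := hN2 N ((le_max_right _ _).trans (hN'.trans hNge))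
  obtain ⟨a', ha1, ha2, hex1⟩ := h3 M ρ hρ hs k cm ((m : ℝ) * L) ((T + S : ℕ) : ℝ) q _ ha.le haT
    hcoc' hex0
  have hex2 := h2 M ρ hρ hs G cm ((m : ℝ) * L) ((T + S : ℕ) : ℝ) ha haT (fun b hb1 hb2 x hx =>
    hm0 m (le_max_left _ _) b hb1 (by push_cast at hb2; linarith) x hx) k q _ a' ha1 ha2
    hcoc' hex1
  refine r5Goal M k q U hq hU c L m T S N N' hL hm1 ?_ hS1.le hNN hex2
  intro u v
  have := KK_dist_le (Or.inl rfl) hL.le hcK u v
  exact this

end Vale.Agent.P216.H971B
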