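import Vale.Agent.P216.H494.CritCover
import Vale.Agent.P216.H977C.Eta
import Vale.Agent.P216.H539.MooreC

/-!
# P216-B (Theorem B): closed geodesics from a class of degree at least two and infinitely many
# free homotopy classes.  Literal statements of the rows.

Free homotopy classes = path components of `LM M` (`Joined`).  `U` is a normalised list cocycle of
degree `q + 1 ≥ 2` on `M`.
-/

set_option linter.all false

open Set Vale.Agent.P216.H494 Vale.Agent.P216.L250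

namespace Vale.Agent.P216.H971B

open Vale.Agent.P216.Sl Vale.Agent.P216.N929
open Vale.Agent.P216.H494 (GeoList)
open Module (finrank)

/-- The loops of level `T` in the free homotopy class of `c`. -/
def Ecl (M : Type) [MetricSpace M] (T : ℝ) (c : LM M) : Set (LM M) := {x | x ∈ XE M T ∧ Joined x c}

/-- `(g, t) ↦ g t` -/
def evl {M : Type} [MetricSpace M] (p : LM M × ℝ) : M := fn p.1 p.2

/-- The integral over `[0, 1]` of the pullback of `U` by the evaluation, mesh `1 / (N + 1)`. -/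
noncomputable def etaL {M : Type} [MetricSpace M] {k : Type} [Field k] (N : ℕ) (U : List M → k) :
    List (LM M) → k :=
  fib (mesh k (1 / ((N : ℝ) + 1)) (N + 1)) fun L => U (L.map evl)

/-- The closed geodesics of length `a`. -/
def Geo1 {M : Type} [MetricSpace M] (G : GeoList M) (a : ℝ) : Set (LM M) := G.KK 1 a ∪ G.KK (-1) a

/-- The null-homotopic based Moore loops of duration `T`. -/
def Om0 (M : Type) [MetricSpace M] (x : M) (T : ℝ) : Set (BoundedContinuousFunction ℝ M) :=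
  {w | w ∈ PS.P x x T ∧ JoinedIn (PS.P x x T) w (PS.cst x)}

/-- **R1** (lengths and gap). -/
def R1Goal : Prop := ∀ (M : Type) [MetricSpace M] [CompactSpace M] [PathConnectedSpace M] (ρ : ℝ),
  0 < ρ → LS.UniqSeg M ρ → ∀ G : GeoList M, Infinite (ZerothHomotopy (LM M)) →
  ∃ (c : LM M) (L : ℝ), 0 < L ∧ c ∈ G.KK 1 L ∧
    (∀ m : ℕ, 1 ≤ m → ∀ x, Joined x (iter m c) → ∀ T, 0 ≤ T → x ∈ XE M T → m * L ≤ T) ∧
    ∀ C : ℝ, ∃ m0 : ℕ, ∀ m ≥ m0, ∀ a : ℝ, m * L < a → a ≤ m * L + C →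
      ∀ x ∈ Geo1 G a, ¬ Joined x (iter m c)

/-- **R2** (deformation in the free homotopy class). -/
def R2Goal : Prop := ∀ (M : Type) [MetricSpace M] [CompactSpace M] (ρ : ℝ), 0 < ρ →
  LS.UniqSeg M ρ → ∀ (G : GeoList M) (c : LM M) (a T : ℝ), 0 < a → a < T →
  (∀ b, a < b → b ≤ T → ∀ x ∈ Geo1 G b, ¬ Joined x c) →
  ∀ (k : Type) [Field k] (q : ℕ) (f : List (LM M) → k) (a' : ℝ), a < a' → a' ≤ T →
    CocL (Ecl M T c) q f → ExL (Ecl M a' c) q f → ExL (Ecl M T c) q f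

/-- **R2b** (the shortest loops of a free homotopy class are closed geodesics). -/
def R2bGoal : Prop := ∀ (M : Type) [MetricSpace M] [CompactSpace M] (ρ : ℝ), 0 < ρ →
  LS.UniqSeg M ρ → ∀ (G : GeoList M) (c : LM M) (a : ℝ), 0 < a →
  (∀ x, Joined x c → ∀ T, 0 ≤ T → x ∈ XE M T → a ≤ T) → Ecl M a c ⊆ Geo1 G a

/-- **R3** (tightness). -/
def R3Goal : Prop := ∀ (M : Type) [MetricSpace M] [CompactSpace M] (ρ : ℝ), 0 < ρ →
  LS.UniqSeg M ρ → ∀ (k : Type) [Field k] (c : LM M) (a T : ℝ) (q : ℕ) (f : List (LM M) → k),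
  0 ≤ a → a < T → CocL (Ecl M T c) q f → ExL (Ecl M a c) q f →
    ∃ a', a < a' ∧ a' ≤ T ∧ ExL (Ecl M a' c) q f

/-- **R4** (circles). -/
def R4Goal : Prop := ∀ (M : Type) [MetricSpace M] [CompactSpace M] (G : GeoList M) (k : Type)
  [Field k] (q : ℕ) (U : List M → k) (a : ℝ) (Z : Set (LM M)), 1 ≤ q → Nrm U →
  CocL (univ : Set M) (q + 1) U → 0 < a → Z ⊆ Geo1 G a →
    ∃ N0 : ℕ, ∀ N ≥ N0, ExL Z q (etaL N U)

/-- **R5** (the family). `T + S` is the total duration, the mesh of `etaL` is `(N' + 1) (T + S)`. -/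
def R5Goal : Prop := ∀ (M : Type) [MetricSpace M] [CompactSpace M] (k : Type) [Field k] (q : ℕ)
  (U : List M → k), 1 ≤ q → Nrm U → ∀ (c : LM M) (L : ℝ) (m T S N N' : ℕ), 0 < L → 1 ≤ m →
  (∀ s t : ℝ, dist (fn c s) (fn c t) ≤ L * |s - t|) → m * L ≤ S →
  N + 1 = (T + S) * (N' + 1) → ExL (Ecl M ((T + S : ℕ) : ℝ) (iter m c)) q (etaL N U) →
    ExL (Om0 M (fn c 0) T) q (H140.eta N' U)

/-- **R6** (the sphere). -/
def R6Goal : Prop := ∀ (M : Type) [MetricSpace M] [CompactSpace M] [PathConnectedSpace M] (ρ : ℝ),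
  0 < ρ → LS.UniqSeg M ρ → ∀ (k : Type) [Field k] (q : ℕ) (U : List M → k), 1 ≤ q → Nrm U →
  CocL (univ : Set M) (q + 1) U →
  ∀ s : C(Metric.sphere (0 : EuclideanSpace ℝ (Fin (q + 2))) 1, M),
    ¬ ExL univ (q + 1) (fun l => U (l.map s)) →
    ∀ x : M, ∃ T N0 : ℕ, ∀ N ≥ N0, ¬ ExL (Om0 M x T) q (H140.eta N U)

/-- **R7** (conjugacy classes and free homotopy classes). -/
def R7Goal : Prop := ∀ (M : Type) [MetricSpace M] [CompactSpace M] [PathConnectedSpace M] (x₀ : M),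
  Infinite (ConjClasses (FundamentalGroup M x₀)) → Infinite (ZerothHomotopy (LM M))

/-- **R8** (`etaL` is a cocycle). -/
def R8Goal : Prop := ∀ (M : Type) [MetricSpace M] [CompactSpace M] (k : Type) [Field k] (q : ℕ)
  (U : List M → k), CocL (univ : Set M) (q + 1) U → ∀ T : ℝ, 0 ≤ T →
    ∃ N0 : ℕ, ∀ N ≥ N0, CocL (XE M T) q (etaL N U)

end Vale.Agent.P216.H971B
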