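import Vale.Agent.P216.H971B.Props

/-!
# P216-B, R8: `etaL` is a cocycle on the levels
-/

set_option linter.all false

open Set Finsupp Vale.Agent.P216.H494 Vale.Agent.P216.L250

namespace Vale.Agent.P216.H971B

open Vale.Agent.P216.Sl Vale.Agent.P216.N929 Vale.Agent.P216.H977C

section

variable {k : Type} [Field k] {S α : Type}

/-- the coboundary of the integral over `[0, 1]` of a closed evaluation -/
theorem dl_eL {e : α × ℝ → S} (he : ∀ a, e (a, 1) = e (a, 0)) (N : ℕ) (U : List S → k)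
    {l : List α} (hl : l ≠ []) :
    dl (N929.fib (mesh k (1 / ((N : ℝ) + 1)) (N + 1)) fun L => U (L.map e)) l =
      N929.fib (mesh k (1 / ((N : ℝ) + 1)) (N + 1)) (fun L => dl U (L.map e)) l := by
  have hN : ((N + 1 : ℕ) : ℝ) * (1 / ((N : ℝ) + 1)) = 1 := by
    push_cast
    field_simp
  rw [N929.dl_fib (mesh_Ln _ _) _ hl, N929.bd_mesh, map_sub, map_sub, ev_sh_point _ hl,
    ev_sh_point _ hl, hN]
  have e1 : (l.map fun a => (a, (1 : ℝ))).map e = (l.map fun a => (a, (0 : ℝ))).map e := by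
    rw [List.map_map, List.map_map]
    exact List.map_congr_left fun a _ => he a
  have e2 : N929.fib (mesh k (1 / ((N : ℝ) + 1)) (N + 1)) (dl fun L => U (L.map e)) l =
      N929.fib (mesh k (1 / ((N : ℝ) + 1)) (N + 1)) (fun L => dl U (L.map e)) l := by
    congr 1
    funext L
    exact N929.dl_map U e L
  rw [e1, e2]
  ring

/-- times of the grid -/
theorem gr_mesh {N : ℕ} {l : List α} {t : List ℝ}
    (ht : ∃ j < N + 1, t = [(j : ℝ) * (1 / ((N : ℝ) + 1)), ((j + 1 : ℕ) : ℝ) * (1 / ((N : ℝ) + 1))])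
    {L : List (α × ℝ)} (hL : Gr l t L) {p r : α × ℝ} (hp : p ∈ L) (hr : r ∈ L) :
    |p.2 - r.2| ≤ 1 / ((N : ℝ) + 1) := by
  have hδ : (0 : ℝ) < 1 / ((N : ℝ) + 1) := by positivity
  obtain ⟨j, -, rfl⟩ := ht
  obtain ⟨h1, h2, h3⟩ := gr_times hδ hL hp
  obtain ⟨g1, g2, g3⟩ := gr_times hδ hL hr
  push_cast at h3 g3
  rw [abs_le]
  constructor <;> nlinarith

end

/-- **Row R8.** -/
theorem r8Goal : R8Goal := by
  intro M _ _ k _ q U hU T hT
  obtain ⟨ε, hε, hU⟩ := hU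
  obtain ⟨N0, hN0⟩ := exists_nat_gt ((T / (ε / 2)) ^ 2)
  refine ⟨N0, fun N hN => ⟨ε / 2, by linarith, fun l hl hs => ?_⟩⟩
  have hne : l ≠ [] := by rintro rfl; simp at hl
  have hper : ∀ g : LM M, evl (g, (1 : ℝ)) = evl (g, (0 : ℝ)) := fun g => by
    have := fn_periodic g 0
    rwa [zero_add] at this
  rw [etaL, dl_eL hper N U hne]
  refine fib_eq_zero (mesh_mem _ _) fun t ht L hL => ?_
  have hδ : (0 : ℝ) < 1 / ((N : ℝ) + 1) := by positivity
  have hsq : T * Real.sqrt (1 / ((N : ℝ) + 1)) < ε / 2 := by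
    have h1 : (T / (ε / 2)) ^ 2 < (N : ℝ) + 1 := by
      have : (N0 : ℝ) ≤ N := by exact_mod_cast hN
      linarith
    have h2 : (T * Real.sqrt (1 / ((N : ℝ) + 1))) ^ 2 < (ε / 2) ^ 2 := by
      rw [mul_pow, Real.sq_sqrt hδ.le]
      rw [div_pow, div_lt_iff₀ (by positivity)] at h1
      have h3 : T ^ 2 * (1 / ((N : ℝ) + 1)) = T ^ 2 / ((N : ℝ) + 1) := by ring
      rw [h3, div_lt_iff₀ (by positivity)]
      linarith
    exact lt_of_pow_lt_pow_left₀ 2 (by positivity) h2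
  have hLl : L.length = q + 1 + 2 := by
    obtain ⟨j, -, rfl⟩ := ht
    have := hL.1
    simp only [List.length_cons, List.length_nil] at this
    omega
  refine hU _ (by rw [List.length_map, hLl]) ⟨fun _ _ => mem_univ _, ?_⟩
  intro x hx y hy
  obtain ⟨p, hp, rfl⟩ := List.mem_map.1 hx
  obtain ⟨r, hr, rfl⟩ := List.mem_map.1 hy
  have hp1 : p.1 ∈ l := (hL.2 p hp).1
  have hr1 : r.1 ∈ l := (hL.2 r hr).1
  have h1 := dist_fn_le_of_mem (hs.1 p.1 hp1) hT p.2 r.2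
  have h2 := dist_fn_le p.1 r.1 r.2
  have h3 := hs.2 p.1 hp1 r.1 hr1
  have h4 : Real.sqrt |p.2 - r.2| ≤ Real.sqrt (1 / ((N : ℝ) + 1)) :=
    Real.sqrt_le_sqrt (gr_mesh ht hL hp hr)
  have h5 : T * Real.sqrt |p.2 - r.2| ≤ T * Real.sqrt (1 / ((N : ℝ) + 1)) :=
    mul_le_mul_of_nonneg_left h4 hT
  change dist (fn p.1 p.2) (fn r.1 r.2) < ε
  linarith [dist_triangle (fn p.1 p.2) (fn p.1 r.2) (fn r.1 r.2)]

end Vale.Agent.P216.H971B
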