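import Vale.Agent.P216.H971B.Fam

/-!
# P216-B, R5: the integral of the family; the row
-/

set_option linter.all false

open Set Finsupp BoundedContinuousFunction Vale.Agent.P216.H494 Vale.Agent.P216.L250

namespace Vale.Agent.P216.H971B

open Vale.Agent.P216.Sl Vale.Agent.P216.N929 Vale.Agent.P216.H977C
open Vale.Agent.P216.PS (P cat mo Lip eq_left eq_right mo_mem isCompact_P)
open Vale.Agent.P216.H140 (eta evw)
open Vale.Agent.P216.MV337 (FL)
open Vale.Agent.P216.MR (gM gM_mem cl cl_nonpos cl_ge cl_mid cl_lip cl_mem)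
open Vale.Agent.P216.H250 (catR dist_catR_le)
open Vale.Agent.P216.AS (IsMap)
open Vale.Agent.P216.B64 (a0)

variable {M : Type} [MetricSpace M] [CompactSpace M] {k : Type} [Field k]

/-- **`etaL` of the loops of Moore loops.** `R = T + S` natural, `N + 1 = R (N' + 1)`. -/
theorem etaL_gM (U : List M → k) {R N N' : ℕ} (hN : N + 1 = R * (N' + 1))
    {l : List (ℝ →ᵇ M)} (hl : ∀ w ∈ l, w ∈ FL M (R : ℝ)) :
    etaL N U (l.map (gM (R : ℝ))) =
      N929.fib (mesh k (1 / ((N' : ℝ) + 1)) (N + 1)) (fun L => U (L.map evw)) l := by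
  have hR : 0 < R := by
    rcases Nat.eq_zero_or_pos R with h | h
    · rw [h] at hN
      omega
    · exact h
  have hRr : (0 : ℝ) < R := by exact_mod_cast hR
  have hN2 : (N : ℝ) + 1 = R * ((N' : ℝ) + 1) := by exact_mod_cast hN
  have hδ : (R : ℝ) * (1 / ((N : ℝ) + 1)) = 1 / ((N' : ℝ) + 1) := by
    rw [hN2]
    field_simp
  have hδ0 : (0 : ℝ) < 1 / ((N : ℝ) + 1) := by positivity
  rw [etaL, N929.fib_map, N929.fib_mesh, N929.fib_mesh]
  refine Finset.sum_congr rfl fun j hj => ?_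
  rw [Finset.mem_range] at hj
  rw [← hδ, ← mp_edge, fib_mp]
  refine N929.fib_congr (edge_mem' _ j) ?_
  rintro t rfl L hL
  rw [List.map_map, List.map_map]
  congr 1
  refine List.map_congr_left fun p hp => ?_
  obtain ⟨h1, h2, h3⟩ := gr_times hδ0 hL hp
  have h4 : ((j + 1 : ℕ) : ℝ) * (1 / ((N : ℝ) + 1)) ≤ 1 := by
    rw [mul_one_div, div_le_one (by positivity)]
    exact_mod_cast hj
  have h5 : 0 ≤ (j : ℝ) * (1 / ((N : ℝ) + 1)) := by positivity
  show fn (gM (R : ℝ) p.1) p.2 = p.1 (R * p.2)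
  exact MR.fn_gM_Icc hRr.le (hl p.1 h1) ⟨h5.trans h2, h3.trans h4⟩

section

variable {c : LM M} {L : ℝ} {m T S : ℕ}
  (hc : ∀ s t : ℝ, dist (fn c s) (fn c t) ≤ L * |s - t|) (hL : 0 < L) (hS : m * L ≤ S)
  (hS0 : 0 < S)

include hc hL hS hS0 in
/-- the part `c^m` of the loops does not contribute -/
theorem eta_cat {U : List M → k} (hU : Nrm U) (N' : ℕ) {l : List (ℝ →ᵇ M)} (hl2 : 2 ≤ l.length)
    (hl : ∀ w ∈ l, w ∈ P (fn c 0) (fn c 0) T) :
    N929.fib (mesh k (1 / ((N' : ℝ) + 1)) ((T + S) * (N' + 1))) (fun L => U (L.map evw))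
      (l.map fun w => cat (T : ℝ) w (Cp c m S)) = eta N' U l := by
  have hδ0 : (0 : ℝ) < 1 / ((N' : ℝ) + 1) := by positivity
  have hS0' : (0 : ℝ) < S := by exact_mod_cast hS0
  have hT0 : (0 : ℝ) ≤ T := Nat.cast_nonneg _
  have hC := Cp_mem (m := m) hc hL hS hS0'
  have hTd : (T : ℝ) = ((T * (N' + 1) : ℕ) : ℝ) * (1 / ((N' : ℝ) + 1)) := by
    push_cast
    field_simp
  have hle : T * (N' + 1) ≤ (T + S) * (N' + 1) := Nat.mul_le_mul_right _ (Nat.le_add_right _ _)
  have hne : l ≠ [] := by rintro rfl; simp at hl2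
  rw [eta_eq N' hU (b := fn c 0) (N' := T * (N' + 1)) hTd.le hne
    fun w hw u hu => eq_right (hl w hw) hu, N929.fib_mesh, N929.fib_mesh,
    ← Finset.sum_range_add_sum_Ico _ hle]
  have h2 : ∑ j ∈ Finset.Ico (T * (N' + 1)) ((T + S) * (N' + 1)),
      N929.fib (edge k (1 / ((N' : ℝ) + 1)) j) (fun L => U (L.map evw))
        (l.map fun w => cat (T : ℝ) w (Cp c m S)) = 0 := by
    refine Finset.sum_eq_zero fun j hj => ?_
    rw [Finset.mem_Ico] at hj
    refine fib_edge_const hU (by rw [List.length_map]; exact hl2) (c := fun u => Cp c m S (u - T))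
      fun v hv u hu => ?_
    obtain ⟨w, hw, rfl⟩ := List.mem_map.1 hv
    have hj1 : (T : ℝ) ≤ (j : ℝ) * (1 / ((N' : ℝ) + 1)) := by
      rw [hTd]
      exact mul_le_mul_of_nonneg_right (by exact_mod_cast hj.1) hδ0.le
    have hu1 : (T : ℝ) ≤ u := by
      rcases hu with rfl | rfl
      · exact hj1
      · push_cast
        nlinarith
    rw [H250.cat_apply' (hl w hw) hC]
    split_ifs with h
    · have e : u = T := le_antisymm h hu1
      rw [e, eq_right (hl w hw) le_rfl, sub_self, eq_left hC le_rfl]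
    · rfl
  rw [h2, add_zero]
  refine Finset.sum_congr rfl fun j hj => ?_
  rw [Finset.mem_range] at hj
  rw [N929.fib_map]
  refine N929.fib_congr (edge_mem' _ j) ?_
  rintro t rfl L' hL'
  rw [List.map_map]
  congr 1
  refine List.map_congr_left fun p hp => ?_
  obtain ⟨h1, h3, h4⟩ := gr_times hδ0 hL' hp
  have h5 : p.2 ≤ T := by
    refine h4.trans ?_
    rw [hTd]
    exact mul_le_mul_of_nonneg_right (by exact_mod_cast hj) hδ0.le
  show cat (T : ℝ) p.1 (Cp c m S) p.2 = p.1 p.2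
  rw [H250.cat_apply' (hl p.1 h1) hC, if_pos h5]

end

/-- **Row R5.** -/
theorem r5Goal : R5Goal := by
  intro M _ _ k _ q U hq hU c L m T S N N' hL hm hc hS hN hex
  have hm' : (1 : ℝ) ≤ m := by exact_mod_cast hm
  have hSr : (0 : ℝ) < S := lt_of_lt_of_le (by positivity) hS
  have hS0 : 0 < S := by exact_mod_cast hSr
  have hT0 : (0 : ℝ) ≤ T := Nat.cast_nonneg _
  have hcast : ((T + S : ℕ) : ℝ) = (T : ℝ) + S := by push_cast; ring
  have hTS : (0 : ℝ) < (T : ℝ) + S := by positivity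
  obtain ⟨g, hg, ε, hε, h⟩ := hex
  have hmap : IsMap (a0 _) (a0 _) (P (fn c 0) (fn c 0) (T : ℝ)) (XE M ((T : ℝ) + S))
      (Fm c m T S) := by
    refine IsMap.of_continuousOn (isCompact_P _ _ _) ?_ (fun w hw => ?_) fun i => i.elim
    · refine (MR.continuousOn_gM hTS).comp (t := FL M ((T : ℝ) + S)) ?_ fun w hw =>
        MV337.P_subset_FL (cat_memP hc hL hS hSr hT0 hw)
      refine LipschitzOnWith.continuousOn (K := 1)
        (LipschitzOnWith.of_dist_le_mul fun w hw w' hw' => ?_)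
      rw [NNReal.coe_one, one_mul]
      exact dist_catR_le (Cp_mem hc hL hS hSr) hw hw'
    · exact gM_mem hTS.le (MV337.P_subset_FL (cat_memP hc hL hS hSr hT0 hw))
  obtain ⟨δ, hδ, huc⟩ := hmap.uc ε hε
  refine ⟨fun l => g (l.map (Fm c m T S)), fun h0 l => hg h0 _, δ, hδ, fun l hl hs => ?_⟩
  rw [N929.dl_map]
  have hP : ∀ w ∈ l, w ∈ P (fn c 0) (fn c 0) (T : ℝ) := fun w hw => (hs.1 w hw).1
  rw [← h (l.map (Fm c m T S)) (by rw [List.length_map, hl]) ⟨fun y hy => ?_,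
    fun y hy y' hy' => ?_⟩]
  · have e1 : l.map (Fm c m T S) =
        (l.map fun w => cat (T : ℝ) w (Cp c m S)).map (gM ((T + S : ℕ) : ℝ)) := by
      rw [List.map_map, hcast]
      rfl
    have hN' : N + 1 = (T + S) * (N' + 1) := hN
    rw [e1, etaL_gM U hN' (fun v hv => ?_), hN', eta_cat hc hL hS hS0 hU N' (by omega) hP]
    obtain ⟨w, hw, rfl⟩ := List.mem_map.1 hv
    rw [hcast]
    exact MV337.P_subset_FL (cat_memP hc hL hS hSr hT0 (hP w hw))
  · obtain ⟨w, hw, rfl⟩ := List.mem_map.1 hy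
    rw [hcast]
    exact Fm_mem hc hL hS hSr hT0 (hs.1 w hw)
  · obtain ⟨w, hw, rfl⟩ := List.mem_map.1 hy
    obtain ⟨w', hw', rfl⟩ := List.mem_map.1 hy'
    exact huc w (hP w hw) w' (hP w' hw') (hs.2 w hw w' hw')

end Vale.Agent.P216.H971B
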