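import Vale.Agent.P216.H971B.EtaL
import Vale.Agent.P216.H539.MooreD
import Vale.Agent.P216.H311.Gom2

/-!
# P216-B, R5: the family `w ↦ w * c^m`
-/

set_option linter.all false

open Set Finsupp BoundedContinuousFunction Vale.Agent.P216.H494 Vale.Agent.P216.L250

namespace Vale.Agent.P216.H971B

open Vale.Agent.P216.Sl Vale.Agent.P216.N929 Vale.Agent.P216.H977C
open Vale.Agent.P216.PS (P cat mo Lip eq_left eq_right mo_mem isCompact_P)
open Vale.Agent.P216.H140 (eta evw)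
open Vale.Agent.P216.MV337 (FL)
open Vale.Agent.P216.MR (gM gM_mem cl cl_nonpos cl_ge cl_mid cl_lip cl_mem)
open Vale.Agent.P216.H250 (catR dist_catR_le)

section Chain

variable {k : Type} [Field k] {α β γ : Type}

/-- naturality in the fibre -/
theorem fib_mp (g : β → γ) (u : Ch k β) (F : List (α × γ) → k) (l : List α) :
    N929.fib (mp g u) F l = N929.fib u (fun L => F (L.map (Prod.map id g))) l := by
  have hid : mp (id : α → α) (single l (1 : k)) = single l 1 := by rw [mp_single, List.map_id]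
  rw [N929.fib, N929.fib]
  nth_rw 1 [← hid]
  rw [sh_mp, ev_mp]

theorem mp_edge (R : ℝ) (δ : ℝ) (j : ℕ) : mp (fun t => R * t) (edge k δ j) = edge k (R * δ) j := by
  rw [edge, edge, mp_single, List.map_cons, List.map_cons, List.map_nil]
  congr 2
  · ring
  · congr 1
    ring

end Chain

variable {M : Type} [MetricSpace M] [CompactSpace M]

/-- the iterate of `c` in time `S` -/
noncomputable def Cp (c : LM M) (m : ℕ) (S : ℝ) : ℝ →ᵇ M := mo fun u => fn c (m * cl S u)

/-- the interpolation -/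
noncomputable def Dr (c : LM M) (m : ℕ) (T S r : ℝ) : ℝ →ᵇ M :=
  mo fun u => fn c (m * ((1 - r) * cl S (u - T) + r * cl (T + S) u))

section

variable {c : LM M} {L : ℝ} {m : ℕ} {T S : ℝ}
  (hc : ∀ s t : ℝ, dist (fn c s) (fn c t) ≤ L * |s - t|) (hL : 0 < L) (hS : m * L ≤ S)
  (hS0 : 0 < S) (hT : 0 ≤ T)

include hc hL hS hS0 in
theorem lip_Cp : Lip fun u => fn c (m * cl S u) := by
  intro u v
  refine (hc _ _).trans ?_
  rw [← mul_sub, abs_mul, Nat.abs_cast]
  have h1 := cl_lip hS0 u v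
  have h2 : 0 ≤ |cl S u - cl S v| := abs_nonneg _
  nlinarith

include hc hL hS hS0 hT in
theorem lip_Dr {r : ℝ} (h0 : 0 ≤ r) (h1 : r ≤ 1) :
    Lip fun u => fn c (m * ((1 - r) * cl S (u - T) + r * cl (T + S) u)) := by
  intro u v
  refine (hc _ _).trans ?_
  rw [← mul_sub, abs_mul, Nat.abs_cast]
  have hTS : 0 < T + S := by linarith
  have a1 := cl_lip hS0 (u - T) (v - T)
  have a2 := cl_lip hTS u v
  rw [show u - T - (v - T) = u - v by ring] at a1
  set x := |cl S (u - T) - cl S (v - T)| with hx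
  set y := |cl (T + S) u - cl (T + S) v| with hy
  have hx0 : 0 ≤ x := abs_nonneg _
  have hy0 : 0 ≤ y := abs_nonneg _
  have h3 : |(1 - r) * cl S (u - T) + r * cl (T + S) u -
      ((1 - r) * cl S (v - T) + r * cl (T + S) v)| ≤ (1 - r) * x + r * y := by
    have e : (1 - r) * cl S (u - T) + r * cl (T + S) u -
        ((1 - r) * cl S (v - T) + r * cl (T + S) v) =
        (1 - r) * (cl S (u - T) - cl S (v - T)) + r * (cl (T + S) u - cl (T + S) v) := by ring
    rw [e]
    refine (abs_add_le _ _).trans ?_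
    rw [abs_mul, abs_mul, abs_of_nonneg h0, abs_of_nonneg (by linarith : (0:ℝ) ≤ 1 - r)]
  have hmL : 0 ≤ m * L := by positivity
  have h4 : m * L * x ≤ |u - v| := by nlinarith
  have h5 : m * L * y ≤ |u - v| := by nlinarith
  calc L * (m * |(1 - r) * cl S (u - T) + r * cl (T + S) u -
      ((1 - r) * cl S (v - T) + r * cl (T + S) v)|) ≤ L * (m * ((1 - r) * x + r * y)) := by gcongr
    _ = (1 - r) * (m * L * x) + r * (m * L * y) := by ring
    _ ≤ (1 - r) * |u - v| + r * |u - v| := by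
        have := sub_nonneg.2 h1
        gcongr
    _ = |u - v| := by ring

theorem fn_nat (c : LM M) (m : ℕ) : fn c m = fn c 0 := by
  have := (fn_periodic c).nat_mul m 0
  rwa [mul_one, zero_add] at this

include hc hL hS hS0 in
theorem Cp_mem : Cp c m S ∈ P (fn c 0) (fn c 0) S := by
  refine mo_mem (lip_Cp hc hL hS hS0) (fun u hu => ?_) fun u hu => ?_
  · rw [cl_nonpos hu hS0, mul_zero]
  · rw [cl_ge hS0 hu, mul_one, fn_nat]

include hc hL hS hS0 hT in
theorem Dr_mem {r : ℝ} (h0 : 0 ≤ r) (h1 : r ≤ 1) :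
    Dr c m T S r ∈ P (fn c 0) (fn c 0) (T + S) := by
  have hTS : 0 < T + S := by linarith
  refine mo_mem (lip_Dr hc hL hS hS0 hT h0 h1) (fun u hu => ?_) fun u hu => ?_
  · rw [cl_nonpos (by linarith) hS0, cl_nonpos hu hTS, mul_zero, mul_zero, add_zero, mul_zero]
  · rw [cl_ge hS0 (by linarith), cl_ge hTS hu, mul_one, mul_one,
      show (m : ℝ) * (1 - r + r) = m by ring, fn_nat]

include hc hL hS hS0 hT in
theorem dist_Dr {r r' : ℝ} (h0 : 0 ≤ r) (h1 : r ≤ 1) (h0' : 0 ≤ r') (h1' : r' ≤ 1) :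
    dist (Dr c m T S r) (Dr c m T S r') ≤ L * m * |r - r'| := by
  have hTS : 0 < T + S := by linarith
  rw [BoundedContinuousFunction.dist_le (by positivity)]
  intro u
  rw [Dr, Dr, (lip_Dr hc hL hS hS0 hT h0 h1).mo_apply, (lip_Dr hc hL hS hS0 hT h0' h1').mo_apply]
  refine (hc _ _).trans ?_
  have e : (m : ℝ) * ((1 - r) * cl S (u - T) + r * cl (T + S) u) -
      m * ((1 - r') * cl S (u - T) + r' * cl (T + S) u) =
      m * ((r - r') * (cl (T + S) u - cl S (u - T))) := by ring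
  rw [e, abs_mul, abs_mul, Nat.abs_cast]
  obtain ⟨a1, a2⟩ := cl_mem hS0 (u - T)
  obtain ⟨b1, b2⟩ := cl_mem hTS u
  have h3 : |cl (T + S) u - cl S (u - T)| ≤ 1 := by
    rw [abs_le]
    constructor <;> linarith
  have h4 : |r - r'| * |cl (T + S) u - cl S (u - T)| ≤ |r - r'| :=
    mul_le_of_le_one_right (abs_nonneg _) h3
  calc L * (m * (|r - r'| * |cl (T + S) u - cl S (u - T)|)) ≤ L * (m * |r - r'|) := by gcongr
    _ = _ := by ring

/-- paths of Moore loops give paths of loops -/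
theorem joined_gM {R : ℝ} (hR : 0 < R) {F : Set (ℝ →ᵇ M)} (hF : F ⊆ FL M R) {w w' : ℝ →ᵇ M}
    (h : JoinedIn F w w') : Joined (gM R w) (gM R w') := by
  obtain ⟨γ, hγ⟩ := h
  exact ⟨γ.map' (f := gM R) ((MR.continuousOn_gM hR).mono (by
    rintro _ ⟨t, rfl⟩
    exact hF (hγ t)))⟩

include hc hL hS hS0 hT in
theorem cat_cst : cat T (PS.cst (fn c 0)) (Cp c m S) = Dr c m T S 0 := by
  ext u
  rw [H250.cat_apply' (PS.cst_mem (fn c 0) T) (Cp_mem hc hL hS hS0), Dr,
    (lip_Dr hc hL hS hS0 hT le_rfl zero_le_one).mo_apply]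
  split_ifs with h
  · rw [cl_nonpos (by linarith) hS0]
    simp
  · rw [Cp, (lip_Cp hc hL hS hS0).mo_apply]
    simp

include hc hL hS hS0 hT in
theorem gM_one : gM (T + S) (Dr c m T S 1) = iter m c := by
  have hTS : 0 < T + S := by linarith
  refine ext_fn fun t => ?_
  rw [MR.fn_gM hTS.le (MV337.P_subset_FL (Dr_mem hc hL hS hS0 hT zero_le_one le_rfl)), Dr,
    (lip_Dr hc hL hS hS0 hT zero_le_one le_rfl).mo_apply, fn_iter]
  have h1 : cl (T + S) ((T + S) * Int.fract t) = Int.fract t := by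
    rw [cl_mid (mul_nonneg hTS.le (Int.fract_nonneg t))
      (mul_le_of_le_one_right hTS.le (Int.fract_lt_one t).le), mul_div_cancel_left₀ _ hTS.ne']
  rw [h1, sub_self, zero_mul, zero_add, one_mul]
  have h2 := (fn_periodic c).int_mul (m * ⌊t⌋) (m * Int.fract t)
  rw [← h2]
  congr 1
  push_cast
  have := Int.floor_add_fract t
  nlinarith

/-- the family -/
noncomputable def Fm (c : LM M) (m : ℕ) (T S : ℝ) (w : ℝ →ᵇ M) : LM M :=
  gM (T + S) (cat T w (Cp c m S))

include hc hL hS hS0 hT in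
theorem cat_memP {w : ℝ →ᵇ M} (hw : w ∈ P (fn c 0) (fn c 0) T) :
    cat T w (Cp c m S) ∈ P (fn c 0) (fn c 0) (T + S) :=
  PS.cat_mem hT hS0.le hw (Cp_mem hc hL hS hS0)

include hc hL hS hS0 hT in
theorem Fm_mem {w : ℝ →ᵇ M} (hw : w ∈ Om0 M (fn c 0) T) :
    Fm c m T S w ∈ Ecl M (T + S) (iter m c) := by
  have hTS : 0 < T + S := by linarith
  refine ⟨gM_mem hTS.le (MV337.P_subset_FL (cat_memP hc hL hS hS0 hT hw.1)), ?_⟩
  have h1 : JoinedIn (P (fn c 0) (fn c 0) (T + S)) (cat T w (Cp c m S))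
      (cat T (PS.cst (fn c 0)) (Cp c m S)) := by
    obtain ⟨γ, hγ⟩ := hw.2
    refine ⟨γ.map' (f := catR T (Cp c m S)) ?_, fun t => ?_⟩
    · refine LipschitzOnWith.continuousOn (K := 1) (LipschitzOnWith.of_dist_le_mul ?_)
      rintro _ ⟨t, rfl⟩ _ ⟨t', rfl⟩
      rw [NNReal.coe_one, one_mul]
      exact dist_catR_le (Cp_mem hc hL hS hS0) (hγ t) (hγ t')
    · exact cat_memP hc hL hS hS0 hT (hγ t)
  have h2 : JoinedIn (P (fn c 0) (fn c 0) (T + S)) (Dr c m T S 0) (Dr c m T S 1) := by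
    refine JoinedIn.ofLine (f := Dr c m T S) ?_ rfl rfl ?_
    · refine LipschitzOnWith.continuousOn (K := (L * m).toNNReal)
        (LipschitzOnWith.of_dist_le_mul fun r hr r' hr' => ?_)
      rw [Real.coe_toNNReal _ (by positivity), Real.dist_eq]
      exact dist_Dr hc hL hS hS0 hT hr.1 hr.2 hr'.1 hr'.2
    · rintro _ ⟨r, hr, rfl⟩
      exact Dr_mem hc hL hS hS0 hT hr.1 hr.2
  have h3 := joined_gM hTS MV337.P_subset_FL (h1.trans (by
    rw [cat_cst hc hL hS hS0 hT]
    exact h2))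
  rw [gM_one hc hL hS hS0 hT] at h3
  exact h3

end

end Vale.Agent.P216.H971B
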